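import Vale.Agent.P275MO.KDefs
import Vale.Agent.P275MB.Iso

/-!
P275 (helper30): charts of the moduli spaces from local Kuranishi families.
-/

set_option linter.all false

open scoped Topology Matrix.Norms.Operator
open Set Filter Metric Matrix
open Vale.Agent.P281Z.Hm Vale.Agent.P275GC Vale.Agent.P275GC.At Vale.Agent.P275MO
open Vale.Agent.P275MB
open Vale.Agent.P275NA (Fm Cy Mn fc)

noncomputable section

namespace Vale.Agent.P275KG

variable {C : Type} [TopologicalSpace C] {n : ℕ} {A : At C} {l : Cy A ℂ} {τ : Ty n}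
  {z z' : Dat C A.N n} {r r' : ℝ} {h1 : 1 < r} {h2 : r ≤ A.R} {g g0 g1 : Cy A (Mn n)}
  {φ : Fm A (Mn n)} {h : Mn n}

theorem Same.isoBy (s : Same A z z') : IsoBy A z z' (fun _ _ => 1) 1 :=
  ⟨⟨s.lam, s.x, fun _ => differentiableOn_const _, fun i j w a => by simp [s.g i j w a],
    fun i w a => by rw [dconst]; simp [s.a i w a]⟩, fun _ _ _ => by simp,
    fun i a => by simp [s.σ i a]⟩

theorem Same.iso {H : Subalgebra ℂ (Mn n)} (s : Same (A.res r h1 h2) z z') : Iso A H z z' :=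
  ⟨r, h1, h2, _, 1, one_mem _, Same.isoBy s⟩

theorem Good.bun (a : Good A l z) : Bun A l z.g := ⟨a.cc, a.det⟩

/-- the frames of an isomorphism of two bundles with determinant `l` preserve the determinant -/
theorem bun_fc (b : Bun A l g) (b0 : Bun A l g0) (b1 : Bun A l g1) (f : BIso A g0 g1 φ) :
    Bun A l (fc A φ g) ∧ BIso A (fc A φ g) g φ := by
  refine ⟨⟨⟨fun i j w a => ?_, fun i w a => ?_, fun i j k w a c => ?_⟩, fun i j w a => ?_⟩,
    f.hol, f.det, fun i j w a => ?_⟩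
  · exact (((an_inv (f.hol.an a.1 i) (f.det i w a.1)).mul (b.cc.an a)).mul
      ((f.hol.an (tr_ball a) j).comp (an_tr a))).differentiableAt.differentiableWithinAt
  · rw [fc, b.cc.one i w a, tr_self a, mul_one, nonsing_inv_mul _ (f.det i w a).isUnit]
  · rw [fc, fc, fc, tr_tr a, b.cc.mul i j k w a c]
    simp only [mul_assoc, mul_nonsing_inv_cancel_left _ _ (f.det j _ (tr_ball a)).isUnit]
  · have e := congrArg det (f.law i j w a)
    have ne : l i j w ≠ 0 := b.det i j w a ▸ b.cc.det.ne a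
    rw [Matrix.det_mul, Matrix.det_mul, b0.det i j w a, b1.det i j w a, mul_comm] at e
    rw [fc, Matrix.det_mul, Matrix.det_mul, b.det i j w a, det_nonsing_inv,
      ← mul_left_cancel₀ ne e, Ring.inverse_eq_inv', mul_right_comm,
      inv_mul_cancel₀ (f.det i w a.1), one_mul]
  · rw [fc, mul_assoc, mul_nonsing_inv_cancel_left _ _ (f.det i w a.1).isUnit]

theorem HFamOn.sub {E : Type} [NormedAddCommGroup E] [NormedSpace ℂ E] {F : E → Dat C A.N n}
    {V V' : Set E} (f : HFamOn A l F V) (m : V' ⊆ V) : HFamOn A l F V' :=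
  ⟨FamOn.sub f.toFamOn m, f.hlam.mono m, fun i => (f.hx i).mono fun _ a => ⟨m a.1, a.2⟩,
    f.hR.mono m, fun i j => (f.hg i j).mono fun _ a => ⟨m a.1, a.2⟩,
    fun i => (f.ha i).mono fun _ a => ⟨m a.1, a.2⟩,
    fun i => (f.hσ i).mono fun _ a => ⟨m a.1, a.2⟩⟩

/-- a local family for the smaller discs is one for the atlas -/
def up (K : Lk (A.res r h1 h2) l τ z) : Lk A l τ z where
  D := K.D
  i0 := K.i0
  r := K.r
  h1 := K.h1
  h2 := K.h2.trans h2
  W := K.W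
  op := K.op
  F := K.F
  w0 := K.w0
  mem := K.mem
  base := (rr K.h1 K.h2 fun E => Same (E.at K.h1) z (K.F K.w0)).1 K.base
  fam := (rr K.h1 K.h2 fun E => HFamOn (E.at K.h1) l K.F K.W).1 K.fam
  hR := K.hR
  lam := K.lam
  x := K.x
  η := K.η
  vc w1 a T _ G V t r' b c hV f q s := by
    obtain ⟨w, d, e, i⟩ := K.vc w1 a T G V t r' b c hV
      ((rr b (c.trans K.h2) fun E => FamOn (E.at b) l G V).2 f) q
      ((rr b (c.trans K.h2) fun E => Same (E.at b) (K.F w1) (G t)).2 s)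
    exact ⟨w, d, e, i.mono fun _ => iso_res.1⟩
  vh w1 a T _ _ _ G V t r' b c hV f q s := by
    obtain ⟨w, d, e, i⟩ := K.vh w1 a T G V t r' b c hV
      ((rr b (c.trans K.h2) fun E => HFamOn (E.at b) l G V).2 f) q
      ((rr b (c.trans K.h2) fun E => Same (E.at b) (K.F w1) (G t)).2 s)
    exact ⟨w, d, e, i.mono fun _ => iso_res.1⟩
  inj w a w' b c := K.inj w a w' b (iso_res.2 c)

/-- gauging by a constant isomorphism -/
theorem gau (gf : GF n A l) (a : Good A l z) (a' : Good A l z') (f : IsoBy A z z' φ h)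
    (hH : h ∈ τ.H) {y : Dat C A.N n} (b : Good A l y) (q : y.R ∈ τ.q) :
    (h.det ≠ 0 ∧ Bun A l (fc A φ y.g) ∧ BIso A (fc A φ y.g) y.g φ) ∧
      (gauge A φ (y.act h)).R ∈ τ.q ∧ IsoBy A (gauge A φ (y.act h)) y (fun i w => 1 * φ i w) (h * 1) := by
  obtain ⟨d, bi, -⟩ := gf.2.1 z z' φ h a a' f
  obtain ⟨u, v⟩ := bun_fc (Good.bun b) (Good.bun a) (Good.bun a') bi
  refine ⟨⟨d, u, v⟩, ?_, IsoBy.trans (gf.1 (y.act h) _ φ (Good.act b d) u v).2.1 (isoBy_act y h)⟩
  have := (τ.conj h⁻¹ (inv_mem_alg hH d) (isUnit_nonsing_inv_det _ d.isUnit).ne_zero _ q).1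
  rwa [nonsing_inv_nonsing_inv _ d.isUnit] at this

variable (gf : ∀ r h1 h2, GF n (A.res r h1 h2) l) (K : Lk A l τ z)
include gf

theorem vc' {w1} (a : w1 ∈ K.W) {T : Type} [TopologicalSpace T] {G : T → Ob A l τ} {t : T}
    (f : FamAt A l (fun s => (G s).1) t) (e : Iso A τ.H (K.F w1) (G t).1) :
    ∃ w : T → Pm τ.m K.D, ContinuousAt w t ∧ w t = w1 ∧
      ∀ᶠ s in 𝓝 t, Iso A τ.H (K.F (w s)) (G s).1 := by
  obtain ⟨r', b, c, V, hV, f⟩ := f
  have d := lt_min K.h1 b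
  have f1 := FamOn.mono f d (min_le_right _ _)
  have g0 := Good.mono (K.fam.good w1 a) d (min_le_left _ _)
  have g1 := f1.good t (mem_of_mem_nhds hV)
  obtain ⟨φ, h, hH, i⟩ := (iso_iff' g0 g1).1 e
  have k := fun s (m : s ∈ V) => gau (gf _ _ _) g0 g1 i hH (f1.good s m) (G s).2.2
  obtain ⟨w, u, v, j⟩ := K.vc w1 a T _ V t _ d (min_le_left _ _) hV
    ((gf _ _ _).2.2.1 T _ _ (fun _ => φ) (fun _ => h) V f1 continuousOn_const
      (fun i' => (i.hol i').continuousOn.comp continuousOn_snd fun _ m => m.2)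
      fun s m => (k s m).1) (fun s m => (k s m).2.1) ((gf _ _ _).2.1 _ _ φ h g0 g1 i).2.2
  refine ⟨w, u, v, ?_⟩
  filter_upwards [j, hV] with s j m
  exact Iso.trans j ⟨_, d, _, _, _, mul_mem hH (one_mem _), (k s m).2.2⟩

theorem vh' {w1} (a : w1 ∈ K.W) {T : Type} [NormedAddCommGroup T] [NormedSpace ℂ T]
    [FiniteDimensional ℂ T] {G : T → Ob A l τ} {t : T} {V : Set T} (hV : V ∈ 𝓝 t)
    (f : HFamOn (A.res r h1 h2) l (fun s => (G s).1) V) (e : Iso A τ.H (K.F w1) (G t).1) :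
    ∃ w : T → Pm τ.m K.D, DifferentiableAt ℂ w t ∧ w t = w1 ∧
      ∀ᶠ s in 𝓝 t, Iso A τ.H (K.F (w s)) (G s).1 := by
  have d := lt_min K.h1 h1
  have hV' := interior_mem_nhds.2 hV
  have f1 := HFamOn.sub (HFamOn.mono f d (min_le_right _ _)) (interior_subset (s := V))
  have g0 := Good.mono (K.fam.good w1 a) d (min_le_left _ _)
  have g1 := f1.good t (mem_of_mem_nhds hV')
  obtain ⟨φ, h, hH, i⟩ := (iso_iff' g0 g1).1 e
  have k := fun s (m : s ∈ interior V) => gau (gf _ _ _) g0 g1 i hH (f1.good s m) (G s).2.2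
  obtain ⟨w, u, v, j⟩ := K.vh w1 a T _ _ t _ d (min_le_left _ _) hV'
    ((gf _ _ _).2.2.2 T _ _ (fun _ => φ) (fun _ => h) _ isOpen_interior f1
      (differentiableOn_const _)
      (fun i' => (i.hol i').comp differentiableOn_snd fun _ m => m.2)
      fun s m => (k s m).1) (fun s m => (k s m).2.1) ((gf _ _ _).2.1 _ _ φ h g0 g1 i).2.2
  refine ⟨w, u, v, ?_⟩
  filter_upwards [j, hV'] with s j m
  exact Iso.trans j ⟨_, d, _, _, _, mul_mem hH (one_mem _), (k s m).2.2⟩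

theorem chart [T2Space C] (opst : ∀ r h1 h2, OPST n (A.res r h1 h2) l) {y : Ob A l τ}
    (K : Lk A l τ y.1) (g : Good (A.res K.r K.h1 K.h2) l y.1) :
    ∃ K : Chart A l τ, y.pt ∈ K.e.source := by
  classical
  let W : Set (Pm τ.m K.D) := {w | w ∈ K.W ∧ Stab (A.res K.r K.h1 K.h2) l (K.F w)}
  have op : IsOpen W := isOpen_iff_mem_nhds.2 fun w a => by
    have := opst _ _ _ _ K.F K.W w K.fam.toFamOn a.1 a.2
    rw [K.op.nhdsWithin_eq a.1] at this
    exact inter_mem (K.op.mem_nhds a.1) this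
  have i0 := Same.isoBy K.base
  have g0 := K.fam.good _ K.mem
  have i1 := IsoBy.symm g i0
  have m0 : K.w0 ∈ W := ⟨K.mem, Stab.iso g0 g i1.toHom i1.det (IsOb.stab y.2 g)⟩
  have ob : ∀ w ∈ W, IsOb A l τ.q (K.F w) := fun w a =>
    ⟨⟨_, _, _, K.fam.good w a.1, a.2⟩, K.hR w a.1⟩
  let f : Pm τ.m K.D → Mod A l τ := fun w => if a : w ∈ W then Ob.pt ⟨K.F w, ob w a⟩ else y.pt
  have fe : ∀ w (a : w ∈ W), f w = Ob.pt ⟨K.F w, ob w a⟩ := fun w a => dif_pos a
  have fi : ∀ w ∈ W, ∀ u : Ob A l τ, f w = u.pt ↔ Iso A τ.H (K.F w) u.1 := fun w a u => by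
    rw [fe w a]
    exact pt_eq_iff
  have inj : InjOn f W := fun w a w' b c =>
    K.inj w a.1 w' b.1 ((fi w a ⟨_, ob w' b⟩).1 (c.trans (fe w' b)))
  have ct : ContinuousOn f W := by
    rw [continuousOn_iff_continuous_domRestrict]
    have : W.domRestrict f = fun w : W => Ob.pt (⟨K.F w, ob w w.2⟩ : Ob A l τ) :=
      funext fun w => fe w w.2
    rw [this]
    exact continuous_iff_continuousAt.2 fun w => FamAt.continuousAt ⟨_, K.h1, K.h2, univ, univ_mem,
      FamOn.comp K.fam.toFamOn continuous_subtype_val.continuousOn fun w _ => w.2.1⟩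
  have om : IsOpenMap (W.domRestrict f) := fun U hU => isOpen_iff.2 fun T _ G t a ⟨w1, b, c⟩ => by
    obtain ⟨w, u, v, j⟩ := vc' gf K w1.2.1 a ((fi _ w1.2 _).1 c)
    have : Subtype.val '' U ∈ 𝓝 (w t) :=
      (op.isOpenMap_subtype_val U hU).mem_nhds ⟨w1, b, v.symm⟩
    filter_upwards [j, u this] with s j ⟨w2, p, q⟩
    exact ⟨w2, p, (fi _ w2.2 _).2 (q ▸ j)⟩
  let e := OpenPartialHomeomorph.ofContinuousOpenRestrict (inj.toPartialEquiv f W) ct om op
  refine ⟨⟨K.D, K.i0, K.r, K.h1, K.h2, e.symm, K.F, HFamOn.sub K.fam fun _ a => a.1, ob, fe,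
    fun w a => K.lam w a.1, fun w a => K.x w a.1, fun w a => K.η w a.1, ?_⟩,
    K.w0, m0, (fi _ m0 y).2 (Iso.symm g (Same.iso K.base))⟩
  rintro E _ _ _ G V t r h1 h2 hV a ⟨w1, b, c⟩
  obtain ⟨w, u, v, j⟩ := vh' gf K b.1 hV a ((fi _ b _).1 c)
  refine u.congr_of_eventuallyEq ?_
  filter_upwards [j, u.continuousAt (op.mem_nhds (v ▸ b))] with s j p
  rw [← (fi _ p _).2 j]
  exact e.left_inv p

omit K

/-- **charts from local Kuranishi families** -/
theorem kur [T2Space C] (lku : ∀ r h1 h2, LKU n (A.res r h1 h2) l)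
    (opst : ∀ r h1 h2, OPST n (A.res r h1 h2) l) : KUR n A l := fun τ m => by
  obtain ⟨y, rfl⟩ := pt_surj m
  obtain ⟨⟨r, a, b, g, s⟩, q⟩ := y.2
  obtain ⟨K⟩ := lku r a b τ y.1 g s q
  exact chart gf opst (up K) (Good.mono g K.h1 K.h2)

/-- the same with the standing hypotheses -/
theorem kur' {d : ℤ} (hS : Std A l n d) (lku : ∀ r h1 h2, LKU n (A.res r h1 h2) l)
    (opst : ∀ r h1 h2, OPST n (A.res r h1 h2) l) : KUR n A l :=
  have := hS.t2
  kur gf lku opst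

end Vale.Agent.P275KG
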