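import Vale.Agent.P275KG.Mod
import Vale.Agent.P275MO.Cn
import Vale.Agent.P275MO.Kur
import Vale.Agent.P275KI.Main

/-!
P275 (helper30): the Kuranishi theorem and the block `MOD`.
-/

set_option linter.all false

open Vale.Agent.P275GC Vale.Agent.P275MO
open Vale.Agent.P275NA (Cy)

namespace Vale.Agent.P275KG

theorem lkus : LKUS := fun _ _ _ _ _ _ h => lku_of h (P275KI.vb h) (cn h)

/-- **Kuranishi** -/
theorem kur_ok {C : Type} [TopologicalSpace C] {n : ℕ} {A : At C} {l : Cy A ℂ} {d : ℤ}
    (h : Std A l n d) : KUR n A l := kur_s lkus h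

theorem nice_ok {C : Type} [TopologicalSpace C] {n : ℕ} {A : At C} {l : Cy A ℂ} {d : ℤ}
    (h : Std A l n d) : NICE n A l := P275MB.nice' h (kur_ok h)

theorem mod : P275Z.MOD := mod_of lkus

end Vale.Agent.P275KG
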