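import Vale.Agent.P275KG.Opst
import Vale.Agent.P275LM.Lim
import Vale.Agent.P275OS.Fin
import Vale.Agent.P275MB.Nice
import Vale.Agent.P275Z.Mid

/-!
P275 (helper30): openness of stability, and the block `MOD` from the local Kuranishi families.
-/

set_option linter.all false

open Set
open Vale.Agent.P275GC Vale.Agent.P275MO Vale.Agent.P275MB
open Vale.Agent.P275NA (Cy)

noncomputable section

namespace Vale.Agent.P275KG

variable {C : Type} [TopologicalSpace C] {n : ℕ} {A : At C} {l : Cy A ℂ} {d : ℤ}

theorem lim0 (hS : Std A l n d) : LIM0 n A l := fun z g st => by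
  have := hS.t2
  have := hS.conn
  have a : 1 < (1 + A.R) / 2 := by linarith [A.hR]
  have b : (1 + A.R) / 2 < A.R := by linarith [A.hR]
  have g' := Good.res (h1 := a) (h2 := b.le) g
  obtain ⟨m, P, u, e, G, -, s⟩ := P275LM.lim0 (Std.res a b.le hS) g' ((stab_res g).2 st)
    (P275LM.pj_res g.cc a b)
  exact ⟨_, a, b.le, _, G.famOn g', zero_mul _, s, fun s hs => ⟨_, _, G.isoBy hs⟩⟩

/-- **stability is open** -/
theorem opst' (hS : Std A l n d) : OPST n A l :=
  have := hS.t2
  have := hS.conn
  opst (fun _ a b => P275OS.opst0' (Std.res a b hS)) (lim0 hS)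

/-- **Kuranishi charts** from the local families -/
theorem kur_of (hS : Std A l n d) (lku : ∀ r h1 h2, LKU n (A.res r h1 h2) l) : KUR n A l :=
  have := hS.t2
  have := hS.conn
  kur (fun _ _ _ => P275GF.gf _ _ _) lku fun _ a b => opst' (Std.res a b hS)

/-- local Kuranishi families exist under the standing hypotheses -/
def LKUS : Prop := ∀ (C : Type) [TopologicalSpace C] (A : At C) (l : Cy A ℂ) (n : ℕ) (d : ℤ),
  Std A l n d → LKU n A l

theorem kur_s (h : LKUS) (hS : Std A l n d) : KUR n A l :=
  have := hS.t2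
  kur_of hS fun _ a b => h _ _ _ _ _ (Std.res a b hS)

theorem mod_of (h : LKUS) : P275Z.MOD := fun _ T =>
  ⟨kur_s h T.std, nice' T.std (kur_s h T.std)⟩

end Vale.Agent.P275KG
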