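import Vale.Agent.P275KG.Kur
import Vale.Agent.P275GF.Gf

/-!
P275 (helper30): stability is open, from openness at `λ = 0` and the limits of the scaling flow.
-/

set_option linter.all false

open scoped Topology Matrix.Norms.Operator
open Set Filter Metric Matrix
open Vale.Agent.P281Z.Hm Vale.Agent.P275GC Vale.Agent.P275GC.At Vale.Agent.P275MO
open Vale.Agent.P275MB
open Vale.Agent.P275NA (Fm Cy Mn fc)

noncomputable section

namespace Vale.Agent.P275KG

section comb

variable {S T X Y : Type} [TopologicalSpace S] [TopologicalSpace T] [TopologicalSpace X]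
  [TopologicalSpace Y]

/-- the product with the topology of iterated limits at `p` -/
def Cb (p : S × T) : Type := S × T

instance (p : S × T) : TopologicalSpace (Cb p) := nhdsAdjoint p ((𝓝 p.1).curry (𝓝 p.2))

theorem cb_same (p : S × T) : @nhds (Cb p) _ p = pure p ⊔ (𝓝 p.1).curry (𝓝 p.2) :=
  nhds_nhdsAdjoint_same p _

theorem cb_ne {p q : S × T} (h : q ≠ p) : @nhds (Cb p) _ q = pure q := nhds_nhdsAdjoint_of_ne _ h

theorem cb_ev {p : S × T} {P : S × T → Prop} (h : ∀ᶠ q in @nhds (Cb p) _ p, P q) :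
    ∀ᶠ s in 𝓝 p.1, ∀ᶠ t in 𝓝 p.2, P (s, t) :=
  (eventually_sup.1 (Eventually.filter_mono (cb_same p).ge h)).2

theorem curry_lim [LocallyCompactSpace X] {p : S × T} {v : S → T → X → Y} {D : S → T → Set X}
    {w : X} (h1 : ContinuousAt (fun q : S × X => v q.1 p.2 q.2) (p.1, w))
    (h1' : ∀ᶠ q in 𝓝 (p.1, w), q.2 ∈ D q.1 p.2)
    (h2 : ∀ s t, ∀ w ∈ D s t, ContinuousAt (fun q : T × X => v s q.1 q.2) (t, w)) :
    Tendsto (fun q : (S × T) × X => v q.1.1 q.1.2 q.2) ((𝓝 p.1).curry (𝓝 p.2) ×ˢ 𝓝 w)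
      (𝓝 (v p.1 p.2 w)) := fun N hN => by
  obtain ⟨N', a, b, d⟩ := mem_nhds_iff.1 hN
  have := (h1.eventually (b.mem_nhds d)).and h1'
  rw [nhds_prod_eq, eventually_prod_iff] at this
  obtain ⟨pa, ha, pb, hb, hab⟩ := this
  obtain ⟨K, k1, k2, k3⟩ := local_compact_nhds hb
  exact eventually_prod_iff.2 ⟨fun p => ∀ w ∈ K, v p.1 p.2 w ∈ N', eventually_curry_iff.2
    (ha.mono fun s hs => k3.eventually_forall_of_forall_eventually fun w hw =>
      h2 _ _ w (hab hs (k2 hw)).2 (b.mem_nhds (hab hs (k2 hw)).1)), (· ∈ K), k1,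
    fun h _ hw => a (h _ hw)⟩

theorem cb_ct [LocallyCompactSpace X] {p : S × T} {v : S → T → X → Y} {D : S → T → Set X}
    (h1 : ∀ w ∈ D p.1 p.2, ContinuousAt (fun q : S × X => v q.1 p.2 q.2) (p.1, w) ∧
      ∀ᶠ q in 𝓝 (p.1, w), q.2 ∈ D q.1 p.2)
    (h2 : ∀ s t, ∀ w ∈ D s t, ContinuousAt (fun q : T × X => v s q.1 q.2) (t, w)) :
    ContinuousOn (fun q : Cb p × X => v q.1.1 q.1.2 q.2) {q | q.2 ∈ D q.1.1 q.1.2} := by
  have c : ∀ q : S × T, ∀ w ∈ D q.1 q.2, Tendsto (fun q : (S × T) × X => v q.1.1 q.1.2 q.2)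
      (pure q ×ˢ 𝓝 w) (𝓝 (v q.1 q.2 w)) := fun q w hw => by
    rw [pure_prod, tendsto_map'_iff]
    exact (h2 _ _ w hw).tendsto.comp (Continuous.prodMk_right q.2).continuousAt
  have k : ∀ q : S × T, ∀ w ∈ D q.1 q.2, Tendsto (fun q : (S × T) × X => v q.1.1 q.1.2 q.2)
      (@nhds (Cb p) _ q ×ˢ 𝓝 w) (𝓝 (v q.1 q.2 w)) := fun q w hw => by
    by_cases e : q = p
    · obtain rfl := e.symm
      exact ((c p w hw).sup (curry_lim (h1 w hw).1 (h1 w hw).2 h2)).mono_left
        ((prod_mono_left _ (cb_same p).le).trans (Filter.sup_prod _ _ _).le)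
    · exact (c q w hw).mono_left (prod_mono_left _ (cb_ne e).le)
  exact fun q hw => ContinuousAt.continuousWithinAt ((k q.1 q.2 hw).mono_left nhds_prod_eq.le)

theorem cb_ct0 {p : S × T} {v : S → T → Y} {D : S → T → Prop}
    (h1 : D p.1 p.2 → ContinuousAt (fun s => v s p.2) p.1 ∧ ∀ᶠ s in 𝓝 p.1, D s p.2)
    (h2 : ∀ s t, D s t → ContinuousAt (v s) t) :
    ContinuousOn (fun q : Cb p => v q.1 q.2) {q | D q.1 q.2} :=
  (cb_ct (X := Unit) (p := p) (v := fun s t _ => v s t) (D := fun s t => {_u | D s t})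
    (fun u a => ⟨ContinuousAt.comp (f := Prod.fst) (x := (p.1, u)) (h1 a).1 continuousAt_fst,
      (continuousAt_fst (p := (p.1, u))).eventually (h1 a).2⟩)
    fun s t u a => ContinuousAt.comp (f := Prod.fst) (x := (t, u)) (h2 s t a) continuousAt_fst).comp
      (Continuous.prodMk_left ()).continuousOn fun _ a => a

theorem cb_ct1 {p : S × T} {v : S → T → Y} (h1 : ContinuousOn (fun s => v s p.2) univ)
    (h2 : ∀ s, ContinuousOn (v s) univ) : ContinuousOn (fun q : Cb p => v q.1 q.2) univ :=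
  cb_ct0 (D := fun _ _ => True)
    (fun _ => ⟨h1.continuousAt univ_mem, Eventually.of_forall fun _ => trivial⟩)
    fun s _ _ => (h2 s).continuousAt univ_mem

end comb

variable {C : Type} [TopologicalSpace C] [T2Space C] {n : ℕ} {A : At C} {l : Cy A ℂ}
  {S T : Type} [TopologicalSpace S] [TopologicalSpace T] {d : ℤ}

theorem off_nh {F : T → Dat C A.N n} (f : FamOn A l F univ) {t : T} {i : Fin A.N} {w : ℂ}
    (a : w ∈ off A (F t).x i) : {p : T × ℂ | p.1 ∈ univ ∧ p.2 ∈ off A (F p.1).x i} ∈ 𝓝 (t, w) := by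
  have b := isOpen_ball.mem_nhds a.1
  have c : ContinuousAt (fun p : T × ℂ => (A.e i).symm p.2) (t, w) :=
    ((cont_symm i).continuousAt b).comp (f := Prod.snd) continuousAt_snd
  have e : ContinuousAt (fun p : T × ℂ => (F p.1).x) (t, w) :=
    (f.x.continuousAt univ_mem).comp (f := Prod.fst) continuousAt_fst
  filter_upwards [continuousAt_snd (p := (t, w)) b, (c.prodMk e) (isClosed_diagonal.isOpen_compl.mem_nhds a.2)]
    with p u v using ⟨trivial, u, v⟩

theorem src_nh {F : T → Dat C A.N n} (f : FamOn A l F univ) {t : T} {i : Fin A.N}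
    (a : (F t).x ∈ (A.e i).source) : {s | s ∈ univ ∧ (F s).x ∈ (A.e i).source} ∈ 𝓝 t :=
  mem_of_superset (f.x.continuousAt univ_mem ((A.e i).open_source.mem_nhds a))
    fun _ b => ⟨trivial, b⟩

/-- separately continuous families are continuous for the topology of iterated limits -/
theorem fam_cb {H : S → T → Dat C A.N n} {p : S × T} (f1 : FamOn A l (fun s => H s p.2) univ)
    (f2 : ∀ s, FamOn A l (H s) univ) : FamOn A l (fun q : Cb p => H q.1 q.2) univ := by
  have o : ∀ {T : Type} [TopologicalSpace T] {t : T} {i j w}, w ∈ A.O i j →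
      univ ×ˢ A.O i j ∈ 𝓝 (t, w) := fun a => prod_mem_nhds univ_mem (O_nhds a)
  refine ⟨fun q _ => (f2 _).good _ trivial,
    cb_ct1 (v := fun s t => (H s t).lam) f1.lam fun s => (f2 s).lam,
    cb_ct1 (v := fun s t => (H s t).x) f1.x fun s => (f2 s).x,
    cb_ct1 (v := fun s t => (H s t).R) f1.R fun s => (f2 s).R, fun i j => ?_, fun i => ?_,
    fun i => ?_⟩
  · exact (cb_ct (p := p) (v := fun s t => (H s t).g i j) (D := fun _ _ => A.O i j)
      (fun w a => ⟨(f1.g i j).continuousAt (o a), continuousAt_snd (O_nhds a)⟩)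
      fun s t w a => ((f2 s).g i j).continuousAt (o a)).mono fun _ a => a.2
  · exact (cb_ct (p := p) (v := fun s t => (H s t).a i) (D := fun s t => off A (H s t).x i)
      (fun w a => ⟨(f1.a i).continuousAt (off_nh f1 a), mem_of_superset (off_nh f1 a) fun _ b => b.2⟩)
      fun s t w a => ((f2 s).a i).continuousAt (off_nh (f2 s) a)).mono fun _ a => a.2
  · exact (cb_ct0 (p := p) (v := fun s t => (H s t).σ i) (D := fun s t => (H s t).x ∈ (A.e i).source)
      (fun a => ⟨(f1.σ i).continuousAt (src_nh f1 a), mem_of_superset (src_nh f1 a) fun _ b => b.2⟩)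
      fun s t a => ((f2 s).σ i).continuousAt (src_nh (f2 s) a)).mono fun _ a => a.2

theorem FamOn.same {F F' : T → Dat C A.N n} {V : Set T} (f : FamOn A l F V)
    (g : ∀ t ∈ V, Good A l (F' t)) (e : ∀ t ∈ V, Same A (F t) (F' t)) : FamOn A l F' V := by
  refine ⟨g, f.lam.congr fun t a => (e t a).lam, f.x.congr fun t a => (e t a).x,
    f.R.congr fun t a => (e t a).R, fun i j => (f.g i j).congr fun p a => (e _ a.1).g i j _ a.2,
    fun i => ((f.a i).mono ?_).congr fun p a => (e _ a.1).a i _ ((e _ a.1).x ▸ a.2),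
    fun i => ((f.σ i).mono ?_).congr fun p a => (e _ a.1).σ i ((e _ a.1).x ▸ a.2)⟩
  · exact fun p a => ⟨a.1, (e _ a.1).x ▸ a.2⟩
  · exact fun p a => ⟨a.1, (e _ a.1).x ▸ a.2⟩

theorem Same.rfl' (z : Dat C A.N n) : Same A z z :=
  ⟨rfl, rfl, fun _ _ _ _ => rfl, fun _ _ _ => rfl, fun _ _ => rfl, rfl⟩

theorem Std.res {r : ℝ} (h1 : 1 < r) (h2 : r ≤ A.R) (s : Std A l n d) :
    Std (A.res r h1 h2) l n d :=
  ⟨s.t2, s.cpt, s.conn, s.cc.res, (res_deg l).trans s.deg, s.two, s.cop⟩

variable (n A l) in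
/-- the scaling orbit of a stable object extends to a family with a stable limit -/
def LIM0 : Prop := ∀ z : Dat C A.N n, Good A l z → Stab A l z →
  ∃ (r : ℝ) (h1 : 1 < r) (h2 : r ≤ A.R) (G : ℂ → Dat C A.N n), FamOn (A.res r h1 h2) l G univ ∧
    (G 0).lam = 0 ∧ Stab (A.res r h1 h2) l (G 0) ∧
    ∀ s ≠ 0, ∃ φ h, IsoBy (A.res r h1 h2) (G s) (z.smul s) φ h

theorem opst_aux [PreconnectedSpace C] (o : OPST0 n A l) {F : T → Dat C A.N n} {t : T}
    (f : FamOn A l F univ) {G : ℂ → Dat C A.N n} (fG : FamOn A l G univ) (h0 : (G 0).lam = 0)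
    (st : Stab A l (G 0)) (e : ∀ s ≠ 0, ∃ φ h, IsoBy A (G s) ((F t).smul s) φ h) :
    ∀ᶠ s in 𝓝 t, Stab A l (F s) := by
  classical
  choose! φ h e using e
  have gf := P275GF.gf n A l
  have fs := fun s : ℂ => FamOn.smul f (continuousOn_const (c := s))
  have k := fun s hs => gf.2.1 _ _ _ _ (fG.good s trivial) ((fs s).good t trivial) (e s hs)
  have b := fun s hs u => bun_fc (Good.bun (f.good u trivial)) (Good.bun (fG.good s trivial))
    (Good.bun ((fs s).good t trivial)) (k s hs).2.1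
  let H : ℂ → T → Dat C A.N n := fun s u =>
    if s = 0 then G 0 else gauge A (φ s) (((F u).smul s).act (h s))
  have f2 : ∀ s, FamOn A l (H s) univ := fun s => by
    by_cases hs : s = 0
    · simpa only [H, if_pos hs] using famOn_const (fG.good 0 trivial) univ
    · simpa only [H, if_neg hs] using gf.2.2.1 T _ _ (fun _ => φ s) (fun _ => h s) univ (fs s)
        continuousOn_const
        (fun i => ((e s hs).hol i).continuousOn.comp continuousOn_snd fun _ m => m.2)
        fun u _ => ⟨(k s hs).1, b s hs u⟩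
  have f1 : FamOn A l (fun s => H s t) univ := FamOn.same fG (fun s _ => (f2 s).good t trivial)
    fun s _ => by
      by_cases hs : s = 0
      · simpa only [H, hs, if_true] using Same.rfl' _
      · simpa only [H, if_neg hs] using (k s hs).2.2
  have e0 : H 0 t = G 0 := if_pos rfl
  have := o (Cb ((0 : ℂ), t)) _ univ ((0 : ℂ), t) (fam_cb f1 f2) trivial
    (by show (H 0 t).lam = 0; rw [e0, h0]) (by show Stab A l (H 0 t); rwa [e0])
  replace this := this.filter_mono (nhdsWithin_univ _).ge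
  obtain ⟨s, a, hs⟩ := (((cb_ev this).filter_mono (nhdsWithin_le_nhds (s := {0}ᶜ))).and
    self_mem_nhdsWithin).exists
  refine a.mono fun u c => ?_
  have hs' : s ≠ 0 := hs
  have c' : Stab A l (gauge A (φ s) (((F u).smul s).act (h s))) := by
    simpa only [H, if_neg hs'] using c
  have g1 := Good.act ((fs s).good u trivial) (k s hs).1
  obtain ⟨g2, i, -⟩ := gf.1 _ _ _ g1 (b s hs u).1 (b s hs u).2
  have j := IsoBy.symm g2 i
  exact (stab_smul hs).1 (stab_act.1 (Stab.iso g1 g2 j.toHom j.det c'))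

/-- **stability is open** -/
theorem opst [PreconnectedSpace C] (o : ∀ r h1 h2, OPST0 n (A.res r h1 h2) l) (lim : LIM0 n A l) :
    OPST n A l := by
  intro T _ F V t f ht st
  rw [nhdsWithin_eq_map_subtype_coe ht, eventually_map]
  have f' := FamOn.comp f continuous_subtype_val.continuousOn fun (s : V) (_ : s ∈ univ) => s.2
  obtain ⟨r, h1, h2, G, a, b, c, e⟩ := lim _ (f.good t ht) st
  exact (opst_aux (t := (⟨t, ht⟩ : V)) (o r h1 h2) (FamOn.res f') a b c e).mono fun s k =>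
    (stab_res (f.good _ s.2)).1 k

end Vale.Agent.P275KG
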